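import Mathlib

/-!
P052.TetrahedraInFour (helper342): row RCELL.
-/

namespace Vale.Agent.P052.R3.H342

theorem le_of_sq_add {A s : ℝ} (hA : -(1/4) < A) (hs : 0 ≤ s) (h : s ^ 2 + s ≤ A ^ 2 + A) :
    s ≤ A := by
  by_contra hc
  push Not at hc
  nlinarith

theorem neg_aux {A B z z' : ℝ} (hA0 : -(1/4) < A) (hαA : 1 - 2 * z ^ 2 ≤ A ^ 2 + A)
    (hB3 : (0.366 : ℝ) ≤ B) (hz0 : 0 ≤ z) (hz2 : z ≤ 1/5) (hz'1 : -(1/2) ≤ z')
    (hz'n : z' < 0) : -(1/10) ≤ z * z' ∧ 0.2128 ≤ A * B ∧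
      (0.92 : ℝ) * (1 / 2) ≤ (1 - 2 * z ^ 2) * (1 - 2 * z' ^ 2) := by
  have hzz : z ^ 2 ≤ 1 / 25 := by
    have := pow_le_pow_left₀ hz0 hz2 2
    norm_num at this ⊢
    exact this
  have hzz' : z' ^ 2 ≤ 1 / 4 := by nlinarith
  have hA5 : (0.5816 : ℝ) ≤ A := le_of_sq_add hA0 (by norm_num) (by norm_num; linarith)
  have e1 : (0.92 : ℝ) ≤ 1 - 2 * z ^ 2 := by linarith
  have e2 : (1 / 2 : ℝ) ≤ 1 - 2 * z' ^ 2 := by linarith
  refine ⟨?_, ?_, mul_le_mul e1 e2 (by norm_num) (by linarith)⟩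
  · have := mul_nonneg hz0 (by linarith : (0 : ℝ) ≤ z' + 1 / 2)
    linarith
  · have := mul_le_mul hA5 hB3 (by norm_num) (by linarith)
    linarith

theorem neg_case {A B z z' : ℝ} (hA0 : -(1/4) < A) (hB0 : -(1/4) < B)
    (hαA : 1 - 2 * z ^ 2 ≤ A ^ 2 + A) (hαB : 1 - 2 * z' ^ 2 ≤ B ^ 2 + B)
    (hA3 : (0.366 : ℝ) ≤ A) (hB3 : (0.366 : ℝ) ≤ B) (hz1 : -(1/2) ≤ z) (hz2 : z ≤ 1/5)
    (hz'1 : -(1/2) ≤ z') (hz'2 : z' ≤ 1/5) (h : z * z' < 0) :
    -(1/10) ≤ z * z' ∧ 0.2128 ≤ A * B ∧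
      (0.92 : ℝ) * (1 / 2) ≤ (1 - 2 * z ^ 2) * (1 - 2 * z' ^ 2) := by
  rcases le_or_gt 0 z with hz0 | hz0
  · have hz'n : z' < 0 := by
      by_contra hc
      push Not at hc
      have := mul_nonneg hz0 hc
      linarith
    exact neg_aux hA0 hαA hB3 hz0 hz2 hz'1 hz'n
  · have hz'n : 0 ≤ z' := by
      by_contra hc
      push Not at hc
      have := mul_pos_of_neg_of_neg hz0 hc
      linarith
    obtain ⟨h1, h2, h3⟩ := neg_aux hB0 hαB hA3 hz'n hz'2 hz1 hz0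
    exact ⟨by linarith, by linarith, by linarith⟩

/-- both `κ` and `ω` negative -/
theorem both_neg {A κ z : ℝ} (hAp : 0 < A) (hk0 : κ < 0)
    (hCA : 1 - 2 * z ^ 2 + 4 * κ ^ 2 ≤ A * (1 + 4 * κ)) : 1 - 2 * z ^ 2 < A := by
  have h1 : A * κ < 0 := mul_neg_of_pos_of_neg hAp hk0
  have h2 : 0 ≤ κ ^ 2 := sq_nonneg κ
  linarith

theorem pos_uv {A B κ ω : ℝ} (hk1 : 0 < κ) (hw1 : 0 < ω) (hAk : 0 < A - κ) (hBw : 0 < B - ω) :
    0 ≤ 4 * (A * B) - 4 * (κ * ω) - 4 * ((A - κ) * (B - ω)) ∧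
    4 * ((4 * (κ * ω)) * (4 * ((A - κ) * (B - ω)))) ≤
      (4 * (A * B) - 4 * (κ * ω) - 4 * ((A - κ) * (B - ω))) ^ 2 := by
  have e : 4 * (A * B) - 4 * (κ * ω) - 4 * ((A - κ) * (B - ω)) =
      4 * (ω * (A - κ) + κ * (B - ω)) := by ring
  have h1 := mul_pos hw1 hAk
  have h2 := mul_pos hk1 hBw
  refine ⟨by rw [e]; positivity, ?_⟩
  have h3 : (4 * (A * B) - 4 * (κ * ω) - 4 * ((A - κ) * (B - ω))) ^ 2 -
      4 * ((4 * (κ * ω)) * (4 * ((A - κ) * (B - ω)))) =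
      16 * (ω * (A - κ) - κ * (B - ω)) ^ 2 := by ring
  have h4 : 0 ≤ 16 * (ω * (A - κ) - κ * (B - ω)) ^ 2 := by positivity
  linarith

theorem final_pos {A B u v t : ℝ} (hA1 : A ≤ 1) (hB1 : B ≤ 1) (hAp : 0 < A) (hBp : 0 < B)
    (hge : 0 ≤ 4 * (A * B) - u - v) (huv : 4 * (u * v) ≤ (4 * (A * B) - u - v) ^ 2)
    (ht : 0 ≤ t) (hu1 : A * B + t ≤ u) (hv1 : A + B + t ≤ v) : False := by
  have hAB : 0 < A * B := mul_pos hAp hBp
  have a1 : A * B ≤ A := by nlinarith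
  have a2 : A * B ≤ B := by nlinarith
  have e1 : A * B ≤ u := by linarith
  have e2 : 2 * (A * B) ≤ v := by linarith
  have e3 : 4 * (A * B) - u - v ≤ A * B := by linarith
  have e4 : (4 * (A * B) - u - v) ^ 2 ≤ (A * B) ^ 2 := pow_le_pow_left₀ hge e3 2
  have e5 : (A * B) * (2 * (A * B)) ≤ u * v :=
    mul_le_mul e1 e2 (by positivity) (by linarith)
  have e6 : 0 < (A * B) ^ 2 := by positivity
  have e7 : (A * B) * (2 * (A * B)) = 2 * (A * B) ^ 2 := by ring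
  linarith

theorem final_neg {A B u v t : ℝ} (hA1 : A ≤ 1) (hB1 : B ≤ 1) (hAp : 0 < A) (hBp : 0 < B)
    (hge : 0 ≤ 4 * (A * B) - u - v) (huv : 4 * (u * v) ≤ (4 * (A * B) - u - v) ^ 2)
    (ht : -(1/5) ≤ t) (hab : 0.2128 ≤ A * B) (hu1 : A * B + t ≤ u) (hv1 : A + B + t ≤ v) :
    False := by
  have hAB : 0 < A * B := mul_pos hAp hBp
  obtain ⟨P, hP0, hPsq⟩ : ∃ P : ℝ, 0 ≤ P ∧ P ^ 2 = A * B :=
    ⟨Real.sqrt (A * B), Real.sqrt_nonneg _, Real.sq_sqrt hAB.le⟩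
  have hABle : A * B ≤ 1 := by nlinarith
  have hP1 : P ≤ 1 := by
    by_contra hc
    push Not at hc
    nlinarith
  have hP46 : (0.46 : ℝ) ≤ P := by
    by_contra hc
    push Not at hc
    nlinarith
  have hAMGM : 2 * P ≤ A + B := by
    have h1 : (2 * P) ^ 2 ≤ (A + B) ^ 2 := by
      have : (2 * P) ^ 2 = 4 * (A * B) := by rw [mul_pow, hPsq]; ring
      rw [this]
      nlinarith [sq_nonneg (A - B)]
    exact (pow_le_pow_iff_left₀ (by linarith) (by linarith) two_ne_zero).1 h1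
  have e1 : P ^ 2 - 1 / 5 ≤ u := by rw [hPsq]; linarith
  have e2 : 2 * P - 1 / 5 ≤ v := by linarith
  have e0 : 0 ≤ P ^ 2 - 1 / 5 := by rw [hPsq]; linarith
  have e2' : 0 ≤ 2 * P - 1 / 5 := by linarith
  have e3 : 4 * (A * B) - u - v ≤ 3 * P ^ 2 - 2 * P + 2 / 5 := by
    rw [← hPsq]; linarith
  have e4 : (4 * (A * B) - u - v) ^ 2 ≤ (3 * P ^ 2 - 2 * P + 2 / 5) ^ 2 :=
    pow_le_pow_left₀ hge e3 2
  have e5 : (P ^ 2 - 1 / 5) * (2 * P - 1 / 5) ≤ u * v :=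
    mul_le_mul e1 e2 e2' (by linarith)
  have e6 : 4 * ((P ^ 2 - 1 / 5) * (2 * P - 1 / 5)) - (3 * P ^ 2 - 2 * P + 2 / 5) ^ 2 =
      P ^ 2 * (-9 * P ^ 2 + 20 * P - 36 / 5) := by ring
  have e7 : 0 < -9 * P ^ 2 + 20 * P - 36 / 5 := by
    have := mul_nonneg (sub_nonneg.2 hP46) (sub_nonneg.2 hP1)
    nlinarith
  have e8 : 0 < P ^ 2 := by positivity
  have e9 := mul_pos e8 e7
  linarith

theorem real_cell {A B κ ω z z' E : ℝ} (hA1 : A ≤ 1) (hB1 : B ≤ 1) (hκA : κ < A) (hωB : ω < B)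
    (hκ : -(1/4) < κ) (hω : -(1/4) < ω) (hz1 : -(1/2) ≤ z) (hz2 : z ≤ 1/5)
    (hz'1 : -(1/2) ≤ z') (hz'2 : z' ≤ 1/5)
    (hCA : 1 - 2 * z ^ 2 + 4 * κ ^ 2 ≤ A * (1 + 4 * κ))
    (hCB : 1 - 2 * z' ^ 2 + 4 * ω ^ 2 ≤ B * (1 + 4 * ω)) (h1 : A * B ≤ E)
    (h2 : A * (1 + 4 * ω) + B * (1 + 4 * κ) - 4 * (A * B) ≤ E) :
    4 * (κ * ω) < E + 2 * (z * z') := by
  have hA0 : -(1/4) < A := by linarith
  have hB0 : -(1/4) < B := by linarith
  have hαA : 1 - 2 * z ^ 2 ≤ A ^ 2 + A := by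
    have := sq_nonneg (A - 2 * κ)
    nlinarith
  have hαB : 1 - 2 * z' ^ 2 ≤ B ^ 2 + B := by
    have := sq_nonneg (B - 2 * ω)
    nlinarith
  have hz : z ^ 2 ≤ 1 / 4 := by
    have := mul_nonneg (by linarith : (0 : ℝ) ≤ z + 1 / 2) (by linarith : (0 : ℝ) ≤ 1 / 2 - z)
    nlinarith
  have hz' : z' ^ 2 ≤ 1 / 4 := by
    have := mul_nonneg (by linarith : (0 : ℝ) ≤ z' + 1 / 2) (by linarith : (0 : ℝ) ≤ 1 / 2 - z')
    nlinarith
  have hA3 : (0.366 : ℝ) ≤ A := le_of_sq_add hA0 (by norm_num) (by norm_num; linarith)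
  have hB3 : (0.366 : ℝ) ≤ B := le_of_sq_add hB0 (by norm_num) (by norm_num; linarith)
  have hAp : 0 < A := by linarith
  have hBp : 0 < B := by linarith
  have hAB : 0 < A * B := mul_pos hAp hBp
  have hneg := neg_case hA0 hB0 hαA hαB hA3 hB3 hz1 hz2 hz'1 hz'2
  rcases le_or_gt (κ * ω) 0 with hkw | hkw
  · rcases le_or_gt 0 (z * z') with ht | ht
    · linarith
    · obtain ⟨e1, e2, _⟩ := hneg ht
      linarith
  · rcases lt_or_ge κ 0 with hk0 | hk0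
    · -- both negative
      have hw0 : ω < 0 := by
        by_contra hc
        push Not at hc
        have := mul_nonpos_of_nonpos_of_nonneg hk0.le hc
        linarith
      have hAα := both_neg hAp hk0 hCA
      have hBα := both_neg hBp hw0 hCB
      have hprod : (1 - 2 * z ^ 2) * (1 - 2 * z' ^ 2) < A * B :=
        mul_lt_mul'' hAα hBα (by linarith) (by linarith)
      have hkw16 : κ * ω ≤ 1 / 16 := by
        have h3 : (-κ) * (-ω) ≤ (1 / 4) * (1 / 4) :=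
          mul_le_mul (by linarith) (by linarith) (by linarith) (by norm_num)
        linarith
      rcases le_or_gt 0 (z * z') with ht | ht
      · have e3 : (1 / 2 : ℝ) * (1 / 2) ≤ (1 - 2 * z ^ 2) * (1 - 2 * z' ^ 2) :=
          mul_le_mul (by linarith) (by linarith) (by norm_num) (by linarith)
        linarith
      · obtain ⟨e1, e2, e3⟩ := hneg ht
        linarith
    · -- both positive
      have hk1 : 0 < κ := by
        rcases hk0.lt_or_eq with h | h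
        · exact h
        · rw [← h] at hkw; simp at hkw
      have hw1 : 0 < ω := by
        by_contra hc
        push Not at hc
        have := mul_nonpos_of_nonneg_of_nonpos hk1.le hc
        linarith
      by_contra hcon
      push Not at hcon
      obtain ⟨hge, huv⟩ := pos_uv hk1 hw1 (sub_pos.2 hκA) (sub_pos.2 hωB)
      have hv1 : A + B + 2 * (z * z') ≤ 4 * ((A - κ) * (B - ω)) := by
        have e : 4 * ((A - κ) * (B - ω)) = 4 * (A * B) - 4 * (A * ω) - 4 * (B * κ) +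
            4 * (κ * ω) := by ring
        rw [e]
        linarith
      have hu1 : A * B + 2 * (z * z') ≤ 4 * (κ * ω) := by linarith
      rcases le_or_gt 0 (z * z') with ht | ht
      · exact final_pos hA1 hB1 hAp hBp hge huv (by linarith : 0 ≤ 2 * (z * z')) hu1 hv1
      · obtain ⟨f1, f2, _⟩ := hneg ht
        exact final_neg hA1 hB1 hAp hBp hge huv (by linarith : -(1/5) ≤ 2 * (z * z')) f2 hu1 hv1

end Vale.Agent.P052.R3.H342
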